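import Vale.Agent.P262.Defs

namespace Vale.Agent.P262

open scoped ENNReal

section general

variable {V : Type*} [NormedAddCommGroup V] [InnerProductSpace ℝ V]

/-- from the start point `x` some signing keeps all squared prefix norms at most `T` -/
def Good (T : ℝ) (N : ℕ) (v : Fin N → V) (x : V) : Prop :=
  ∃ ε : Fin N → ℤˣ, ∀ k ≤ N, ‖x + pre v ε k‖ ^ 2 ≤ T

lemma pre_zero {N : ℕ} (v : Fin N → V) (ε : Fin N → ℤˣ) : pre v ε 0 = 0 := by
  simp [pre]

lemma pre_succ {N : ℕ} (v : Fin (N + 1) → V) (ε : Fin (N + 1) → ℤˣ) (k : ℕ) :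
    pre v ε (k + 1) = (((ε 0 : ℤ) : ℝ)) • v 0 + pre (Fin.tail v) (Fin.tail ε) k := by
  unfold pre
  rw [Fin.sum_univ_succ]
  simp [Fin.tail]

lemma good_zero {T : ℝ} (v : Fin 0 → V) (x : V) : Good T 0 v x ↔ ‖x‖ ^ 2 ≤ T := by
  constructor
  · rintro ⟨ε, h⟩
    have := h 0 le_rfl
    simpa [pre_zero] using this
  · intro h
    refine ⟨fun _ => 1, fun k hk => ?_⟩
    have : k = 0 := by omega
    subst this
    simpa [pre_zero] using h

lemma good_succ {T : ℝ} {N : ℕ} (v : Fin (N + 1) → V) (x : V) :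
    Good T (N + 1) v x ↔
      ‖x‖ ^ 2 ≤ T ∧ (Good T N (Fin.tail v) (x + v 0) ∨ Good T N (Fin.tail v) (x - v 0)) := by
  constructor
  · rintro ⟨ε, h⟩
    refine ⟨by simpa [pre_zero] using h 0 (Nat.zero_le _), ?_⟩
    rcases Int.units_eq_one_or (ε 0) with h0 | h0
    · left
      refine ⟨Fin.tail ε, fun k hk => ?_⟩
      have := h (k + 1) (by omega)
      rw [pre_succ, h0] at this
      simpa [add_assoc] using this
    · right
      refine ⟨Fin.tail ε, fun k hk => ?_⟩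
      have := h (k + 1) (by omega)
      rw [pre_succ, h0] at this
      simpa [add_assoc, sub_eq_add_neg] using this
  · rintro ⟨hx, h | h⟩
    · obtain ⟨ε, h⟩ := h
      refine ⟨Fin.cons 1 ε, fun k hk => ?_⟩
      cases k with
      | zero => simpa [pre_zero] using hx
      | succ k =>
        have := h k (by omega)
        rw [pre_succ]
        simpa [add_assoc] using this
    · obtain ⟨ε, h⟩ := h
      refine ⟨Fin.cons (-1) ε, fun k hk => ?_⟩
      cases k with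
      | zero => simpa [pre_zero] using hx
      | succ k =>
        have := h k (by omega)
        rw [pre_succ]
        simpa [add_assoc, sub_eq_add_neg] using this

lemma Good.start_le {T : ℝ} {N : ℕ} {v : Fin N → V} {x : V} (h : Good T N v x) : ‖x‖ ^ 2 ≤ T := by
  obtain ⟨ε, h⟩ := h
  simpa [pre_zero] using h 0 (Nat.zero_le _)

end general

lemma sigma_le_of_good {d : ℕ} {T : ℝ}
    (h : ∀ (N : ℕ) (v : Fin N → EuclideanSpace ℝ (Fin d)), (∀ i, ‖v i‖ ≤ 1) → Good T N v 0) :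
    sigma d ≤ ENNReal.ofReal (Real.sqrt T) := by
  unfold sigma sigmaN
  refine iSup_le fun N => iSup_le fun v => ENNReal.ofReal_le_ofReal ?_
  obtain ⟨ε, hε⟩ := h N.1 v.1 v.2
  unfold cost
  refine ciInf_le_of_le (Set.finite_range _).bddBelow ε ?_
  refine ciSup_le fun k => ?_
  have := hε k (by have := k.2; omega)
  rw [zero_add] at this
  exact Real.le_sqrt_of_sq_le this

lemma le_sigma_of_not_good {d : ℕ} {T : ℝ}
    (h : ∀ τ : ℝ, 0 ≤ τ → τ < T → ∃ (N : ℕ) (_ : 1 ≤ N) (v : Fin N → EuclideanSpace ℝ (Fin d)),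
      (∀ i, ‖v i‖ ≤ 1) ∧ ¬ Good τ N v 0) :
    ENNReal.ofReal (Real.sqrt T) ≤ sigma d := by
  refine le_of_forall_lt fun c hc => ?_
  have hctop : c ≠ ⊤ := ne_top_of_lt hc
  have hc' : c.toReal < Real.sqrt T := by
    rw [← ENNReal.ofReal_toReal hctop] at hc
    exact (ENNReal.ofReal_lt_ofReal_iff_of_nonneg ENNReal.toReal_nonneg).1 hc
  have hc0 : 0 ≤ c.toReal := ENNReal.toReal_nonneg
  -- pick r strictly between
  obtain ⟨r, hr1, hr2⟩ := exists_between hc'
  have hr0 : 0 ≤ r := hc0.trans hr1.le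
  have hτ : r ^ 2 < T := by
    have := Real.lt_sqrt hr0 |>.1 hr2
    exact this
  obtain ⟨N, hN, v, hv, hbad⟩ := h (r ^ 2) (sq_nonneg r) hτ
  have hcost : r ≤ cost v := by
    unfold cost
    refine le_ciInf fun ε => ?_
    have : ∃ k ≤ N, r ^ 2 < ‖(0 : EuclideanSpace ℝ (Fin d)) + pre v ε k‖ ^ 2 := by
      by_contra hcon
      push Not at hcon
      exact hbad ⟨ε, hcon⟩
    obtain ⟨k, hk, hlt⟩ := this
    rw [zero_add] at hlt
    have h1 : r < ‖pre v ε k‖ := lt_of_pow_lt_pow_left₀ 2 (norm_nonneg _) hlt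
    have h2 : ‖pre v ε k‖ ≤ ⨆ k : Fin (N + 1), ‖pre v ε (k : ℕ)‖ :=
      le_ciSup (f := fun k : Fin (N + 1) => ‖pre v ε (k : ℕ)‖) (Set.finite_range _).bddAbove
        ⟨k, by omega⟩
    exact h1.le.trans h2
  calc c = ENNReal.ofReal c.toReal := (ENNReal.ofReal_toReal hctop).symm
    _ < ENNReal.ofReal r := (ENNReal.ofReal_lt_ofReal_iff_of_nonneg hc0).2 hr1
    _ ≤ ENNReal.ofReal (cost v) := ENNReal.ofReal_le_ofReal hcost
    _ ≤ sigmaN d N := le_iSup (fun v : {v : Fin N → EuclideanSpace ℝ (Fin d) // ∀ i, ‖v i‖ ≤ 1} =>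
          ENNReal.ofReal (cost v.1)) ⟨v, hv⟩
    _ ≤ sigma d := le_iSup (fun N : {N : ℕ // 1 ≤ N} => sigmaN d N.1) ⟨N, hN⟩

end Vale.Agent.P262
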