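import Mathlib

namespace Vale.Agent.P262

open scoped ENNReal

/-- The signed prefix sum `∑_{i < k} ε_i v_i` of a finite sequence in a real vector space. -/
noncomputable def pre {V : Type*} [AddCommGroup V] [Module ℝ V] {N : ℕ}
    (v : Fin N → V) (ε : Fin N → ℤˣ) (k : ℕ) : V :=
  ∑ i : Fin N, if (i : ℕ) < k then (((ε i : ℤ) : ℝ)) • v i else 0

/-- `min over signs of max over 0 ≤ k ≤ N of the norm of the k-th signed prefix sum`. -/
noncomputable def cost {d N : ℕ} (v : Fin N → EuclideanSpace ℝ (Fin d)) : ℝ :=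
  ⨅ ε : Fin N → ℤˣ, ⨆ k : Fin (N + 1), ‖pre v ε (k : ℕ)‖

/-- `σ(d,N)`: supremum of `cost` over sequences of length `N` in the Euclidean unit ball. -/
noncomputable def sigmaN (d N : ℕ) : ℝ≥0∞ :=
  ⨆ v : {v : Fin N → EuclideanSpace ℝ (Fin d) // ∀ i, ‖v i‖ ≤ 1}, ENNReal.ofReal (cost v.1)

/-- `σ(d) = sup_{N ≥ 1} σ(d,N)`. -/
noncomputable def sigma (d : ℕ) : ℝ≥0∞ :=
  ⨆ N : {N : ℕ // 1 ≤ N}, sigmaN d N.1

end Vale.Agent.P262
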