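import Vale.Agent.P262.Basic

namespace Vale.Agent.P262

open scoped ENNReal RealInnerProductSpace

section lower

variable {V : Type*} [NormedAddCommGroup V] [InnerProductSpace ℝ V]

lemma inner_pre_eq_zero {N : ℕ} (v : Fin N → V) (ε : Fin N → ℤˣ) (k : ℕ) (y : V)
    (h : ∀ i, ⟪y, v i⟫ = 0) : ⟪y, pre v ε k⟫ = 0 := by
  unfold pre
  rw [inner_sum]
  apply Finset.sum_eq_zero
  intro i _
  split_ifs
  · rw [inner_smul_right, h i, mul_zero]
  · simp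

lemma good_shift {τ : ℝ} {N : ℕ} (v : Fin N → V) (x y : V) (hxy : ⟪y, x⟫ = 0)
    (h : ∀ i, ⟪y, v i⟫ = 0) (hg : Good (τ + ‖y‖ ^ 2) N v (x + y)) : Good τ N v x := by
  obtain ⟨ε, hε⟩ := hg
  refine ⟨ε, fun k hk => ?_⟩
  have h1 := hε k hk
  have e : x + y + pre v ε k = (x + pre v ε k) + y := by abel
  rw [e, norm_add_sq_real] at h1
  have h2 : ⟪x + pre v ε k, y⟫ = 0 := by
    rw [real_inner_comm, inner_add_right, hxy, inner_pre_eq_zero v ε k y h, add_zero]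
  rw [h2] at h1
  linarith

lemma pre_neg {N : ℕ} (v : Fin N → V) (ε : Fin N → ℤˣ) (k : ℕ) :
    pre v (fun i => - ε i) k = - pre v ε k := by
  unfold pre
  rw [← Finset.sum_neg_distrib]
  apply Finset.sum_congr rfl
  intro i _
  split_ifs <;> simp

lemma good_neg {T : ℝ} {N : ℕ} (v : Fin N → V) (x : V) (h : Good T N v (-x)) : Good T N v x := by
  obtain ⟨ε, hε⟩ := h
  refine ⟨fun i => - ε i, fun k hk => ?_⟩
  have := hε k hk
  rw [pre_neg]
  have e : x + - pre v ε k = - (-x + pre v ε k) := by abel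
  rw [e, norm_neg]
  exact this

def InPl (f0 f1 z : V) : Prop := ∃ a b : ℝ, z = a • f0 + b • f1

variable {f0 f1 : V}

lemma inner_pl (h0 : ‖f0‖ = 1) (h1 : ‖f1‖ = 1) (h01 : ⟪f0, f1⟫ = 0) (a b c d : ℝ) :
    ⟪a • f0 + b • f1, c • f0 + d • f1⟫ = a * c + b * d := by
  have h10 : ⟪f1, f0⟫ = 0 := by rw [real_inner_comm]; exact h01
  simp only [inner_add_left, inner_add_right, inner_smul_left, inner_smul_right,
    real_inner_self_eq_norm_sq, h0, h1, h01, h10, conj_trivial]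
  ring

lemma exists_dir (h0 : ‖f0‖ = 1) (h1 : ‖f1‖ = 1) (h01 : ⟪f0, f1⟫ = 0) (x : V)
    (hx : InPl f0 f1 x) (hE : 1 ≤ ‖x‖ ^ 2) (a : ℝ) (ha0 : 0 ≤ a) (ha : a ≤ 1 / 2) :
    ∃ u : V, InPl f0 f1 u ∧ ‖u‖ ^ 2 = 1 ∧ ⟪x, u⟫ = -a := by
  obtain ⟨x0, x1, rfl⟩ := hx
  have hEq : ‖x0 • f0 + x1 • f1‖ ^ 2 = x0 * x0 + x1 * x1 := by
    rw [← real_inner_self_eq_norm_sq, inner_pl h0 h1 h01]
  rw [hEq] at hE
  set E := x0 * x0 + x1 * x1 with hEdef
  have hEpos : 0 < E := by linarith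
  have hrad : 0 ≤ E - a ^ 2 := by nlinarith
  set β := Real.sqrt (E - a ^ 2) / E with hβ
  set α := -a / E with hα
  have hβ2 : β ^ 2 = (E - a ^ 2) / E ^ 2 := by
    rw [hβ, div_pow, Real.sq_sqrt hrad]
  refine ⟨(α * x0 - β * x1) • f0 + (α * x1 + β * x0) • f1, ⟨_, _, rfl⟩, ?_, ?_⟩
  · rw [← real_inner_self_eq_norm_sq, inner_pl h0 h1 h01]
    have : (α * x0 - β * x1) * (α * x0 - β * x1) + (α * x1 + β * x0) * (α * x1 + β * x0)
        = (α ^ 2 + β ^ 2) * E := by rw [hEdef]; ring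
    rw [this, hβ2, hα]
    field_simp
    ring
  · rw [inner_pl h0 h1 h01]
    have : x0 * (α * x0 - β * x1) + x1 * (α * x1 + β * x0) = α * E := by rw [hEdef]; ring
    rw [this, hα]
    field_simp

lemma InPl.add {x y : V} (hx : InPl f0 f1 x) (hy : InPl f0 f1 y) : InPl f0 f1 (x + y) := by
  obtain ⟨a, b, rfl⟩ := hx
  obtain ⟨c, d, rfl⟩ := hy
  exact ⟨a + c, b + d, by simp only [add_smul]; abel⟩

lemma spiral (h0 : ‖f0‖ = 1) (h1 : ‖f1‖ = 1) (h01 : ⟪f0, f1⟫ = 0) :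
    ∀ (n : ℕ) (x : V) (τ : ℝ), InPl f0 f1 x → 1 ≤ ‖x‖ ^ 2 → 0 < 2 - (τ - ‖x‖ ^ 2) →
      1 < (2 - (τ - ‖x‖ ^ 2)) * (3 / 2 : ℝ) ^ n →
      ∃ (N : ℕ) (v : Fin N → V), (∀ i, ‖v i‖ ≤ 1 ∧ InPl f0 f1 (v i)) ∧ ¬ Good τ N v x := by
  have base : ∀ (x : V) (τ : ℝ), InPl f0 f1 x → 1 ≤ ‖x‖ ^ 2 → 1 < 2 - (τ - ‖x‖ ^ 2) →
      ∃ (N : ℕ) (v : Fin N → V), (∀ i, ‖v i‖ ≤ 1 ∧ InPl f0 f1 (v i)) ∧ ¬ Good τ N v x := by
    intro x τ hx hE hγ
    obtain ⟨u, hu, hu1, hxu⟩ := exists_dir h0 h1 h01 x hx hE 0 le_rfl (by norm_num)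
    refine ⟨1, fun _ => u, fun _ => ⟨?_, hu⟩, ?_⟩
    · nlinarith [norm_nonneg u]
    · rw [good_succ]
      rintro ⟨_, h | h⟩
      · have := h.start_le
        rw [norm_add_sq_real, hxu, hu1] at this
        linarith
      · have := h.start_le
        rw [norm_sub_sq_real, hxu, hu1] at this
        linarith
  intro n
  induction n with
  | zero =>
    intro x τ hx hE _ h
    exact base x τ hx hE (by simpa using h)
  | succ n ih =>
    intro x τ hx hE hγ h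
    by_cases hb : 1 < 2 - (τ - ‖x‖ ^ 2)
    · exact base x τ hx hE hb
    · push Not at hb
      set γ := 2 - (τ - ‖x‖ ^ 2) with hγdef
      obtain ⟨u, hu, hu1, hxu⟩ := exists_dir h0 h1 h01 x hx hE ((1 - γ / 2) / 2)
        (by linarith) (by linarith)
      have hplus : ‖x + u‖ ^ 2 = ‖x‖ ^ 2 + γ / 2 := by
        rw [norm_add_sq_real, hxu, hu1]; ring
      have hminus : ‖x - u‖ ^ 2 = τ + γ / 2 := by
        rw [norm_sub_sq_real, hxu, hu1, hγdef]; ring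
      have hγ' : 2 - (τ - ‖x + u‖ ^ 2) = γ * (3 / 2) := by
        rw [hplus, hγdef]; ring
      obtain ⟨N, v, hv, hbad⟩ := ih (x + u) τ (hx.add hu) (by rw [hplus]; linarith)
        (by rw [hγ']; positivity) (by rw [hγ']; rw [pow_succ] at h; linarith)
      refine ⟨N + 1, Fin.cons u v, ?_, ?_⟩
      · intro i
        refine Fin.cases ?_ (fun j => ?_) i
        · simp only [Fin.cons_zero]
          exact ⟨by nlinarith [norm_nonneg u], hu⟩
        · simp only [Fin.cons_succ]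
          exact hv j
      · rw [good_succ]
        simp only [Fin.tail_cons, Fin.cons_zero]
        rintro ⟨_, h | h⟩
        · exact hbad h
        · have := h.start_le
          rw [hminus] at this
          linarith

lemma planar_lower (h0 : ‖f0‖ = 1) (h1 : ‖f1‖ = 1) (h01 : ⟪f0, f1⟫ = 0) (τ : ℝ) (hτ : τ < 3) :
    ∃ (N : ℕ) (v : Fin N → V), 1 ≤ N ∧ (∀ i, ‖v i‖ ≤ 1 ∧ InPl f0 f1 (v i)) ∧ ¬ Good τ N v 0 := by
  have hf : InPl f0 f1 f0 := ⟨1, 0, by simp⟩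
  have hγ : 0 < 2 - (τ - ‖f0‖ ^ 2) := by rw [h0]; linarith
  obtain ⟨n, hn⟩ := pow_unbounded_of_one_lt (1 / (2 - (τ - ‖f0‖ ^ 2))) (by norm_num : (1 : ℝ) < 3 / 2)
  have hn' : 1 < (2 - (τ - ‖f0‖ ^ 2)) * (3 / 2 : ℝ) ^ n := by
    rw [div_lt_iff₀ hγ] at hn
    linarith
  obtain ⟨N, v, hv, hbad⟩ := spiral h0 h1 h01 n f0 τ hf (by rw [h0]; norm_num) hγ hn'
  refine ⟨N + 1, Fin.cons f0 v, by omega, ?_, ?_⟩
  · intro i
    refine Fin.cases ?_ (fun j => ?_) i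
    · simp only [Fin.cons_zero]
      exact ⟨h0.le, hf⟩
    · simp only [Fin.cons_succ]
      exact hv j
  · rw [good_succ]
    simp only [Fin.tail_cons, Fin.cons_zero, zero_add, zero_sub]
    rintro ⟨_, h | h⟩
    · exact hbad h
    · exact hbad (good_neg v f0 h)

lemma ext_orth : ∀ (m : ℕ) (e : Fin m → V), Orthonormal ℝ e → ∀ {N : ℕ} (v : Fin N → V) (τ : ℝ),
    (∀ i, ‖v i‖ ≤ 1) → ¬ Good τ N v 0 →
    ∃ (N' : ℕ) (v' : Fin N' → V), N ≤ N' ∧ (∀ i, ‖v' i‖ ≤ 1) ∧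
      ∀ y : V, (∀ j, ⟪e j, y⟫ = 0) → (∀ i, ⟪y, v i⟫ = 0) → (∀ j i, ⟪e j, v i⟫ = 0) →
        ¬ Good (τ + ‖y‖ ^ 2 + m) N' v' y := by
  intro m
  induction m with
  | zero =>
    intro e _ N v τ hv hbad
    refine ⟨N, v, le_rfl, hv, fun y _ hy _ hg => hbad ?_⟩
    apply good_shift v 0 y (by simp) hy
    simpa using hg
  | succ m ih =>
    intro e he N v τ hv hbad
    have he' : Orthonormal ℝ (Fin.tail e) := he.comp _ (Fin.succ_injective _)
    obtain ⟨N', v', hN, hv', hP⟩ := ih (Fin.tail e) he' v τ hv hbad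
    refine ⟨N' + 1, Fin.cons (e 0) v', by omega, ?_, ?_⟩
    · intro i
      refine Fin.cases ?_ (fun j => ?_) i
      · simp only [Fin.cons_zero]
        exact (he.1 0).le
      · simp only [Fin.cons_succ]
        exact hv' j
    · intro y hy hyv hev
      rw [good_succ]
      simp only [Fin.tail_cons, Fin.cons_zero]
      have hn0 : ‖e 0‖ = 1 := he.1 0
      have hy0 : ⟪y, e 0⟫ = 0 := by rw [real_inner_comm]; exact hy 0
      have horth : ∀ j : Fin m, ⟪Fin.tail e j, e 0⟫ = 0 := fun j =>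
        he.2 (by simp [Fin.ext_iff] : (Fin.succ j) ≠ 0)
      rintro ⟨_, h | h⟩
      · refine hP (y + e 0) (fun j => ?_) (fun i => ?_) (fun j i => hev _ i) ?_
        · rw [inner_add_right, horth j, add_zero]; exact hy _
        · rw [inner_add_left, hyv i, hev 0 i, add_zero]
        · have e1 : ‖y + e 0‖ ^ 2 = ‖y‖ ^ 2 + 1 := by
            rw [norm_add_sq_real, hy0, hn0]; ring
          rw [e1]
          have e2 : τ + (‖y‖ ^ 2 + 1) + (m : ℝ) = τ + ‖y‖ ^ 2 + ((m + 1 : ℕ) : ℝ) := by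
            push_cast; ring
          rw [e2]; exact h
      · refine hP (y - e 0) (fun j => ?_) (fun i => ?_) (fun j i => hev _ i) ?_
        · rw [inner_sub_right, horth j, sub_zero]; exact hy _
        · rw [inner_sub_left, hyv i, hev 0 i, sub_zero]
        · have e1 : ‖y - e 0‖ ^ 2 = ‖y‖ ^ 2 + 1 := by
            rw [norm_sub_sq_real, hy0, hn0]; ring
          rw [e1]
          have e2 : τ + (‖y‖ ^ 2 + 1) + (m : ℝ) = τ + ‖y‖ ^ 2 + ((m + 1 : ℕ) : ℝ) := by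
            push_cast; ring
          rw [e2]; exact h

lemma lower_general (m : ℕ) (b : Fin (m + 2) → V) (hb : Orthonormal ℝ b) (τ : ℝ)
    (hτ : τ < (m : ℝ) + 3) :
    ∃ (N : ℕ) (_ : 1 ≤ N) (v : Fin N → V), (∀ i, ‖v i‖ ≤ 1) ∧ ¬ Good τ N v 0 := by
  have h0 : ‖b 0‖ = 1 := hb.1 0
  have h1 : ‖b 1‖ = 1 := hb.1 1
  have h01 : ⟪b 0, b 1⟫ = 0 := hb.2 (by simp [Fin.ext_iff])
  obtain ⟨N, v, hN, hv, hbad⟩ := planar_lower h0 h1 h01 (τ - m) (by linarith)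
  have he : Orthonormal ℝ (fun j : Fin m => b j.succ.succ) :=
    hb.comp _ (fun i j hij => by simpa using hij)
  obtain ⟨N', v', hN', hv', hP⟩ := ext_orth m _ he v (τ - m) (fun i => (hv i).1) hbad
  refine ⟨N', by omega, v', hv', ?_⟩
  have := hP 0 (by simp) (by simp) ?_
  · simpa using this
  · intro j i
    obtain ⟨a, c, hac⟩ := (hv i).2
    rw [hac, inner_add_right, inner_smul_right, inner_smul_right]
    have e0 : ⟪b j.succ.succ, b 0⟫ = 0 := hb.2 (by simp [Fin.ext_iff])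
    have e1 : ⟪b j.succ.succ, b 1⟫ = 0 := hb.2 (by simp [Fin.ext_iff])
    rw [e0, e1]; simp

end lower

theorem sqrt_succ_le_sigma (d : ℕ) (hd : 2 ≤ d) :
    ENNReal.ofReal (Real.sqrt ((d : ℝ) + 1)) ≤ sigma d := by
  obtain ⟨m, rfl⟩ : ∃ m, d = m + 2 := ⟨d - 2, by omega⟩
  refine le_sigma_of_not_good fun τ _ hτ => ?_
  exact lower_general m (fun i => EuclideanSpace.single i (1 : ℝ))
    EuclideanSpace.orthonormal_single τ (by push_cast at hτ; linarith)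

end Vale.Agent.P262
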