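import Vale.Agent.P262.Basic

namespace Vale.Agent.P262

open scoped ENNReal RealInnerProductSpace

abbrev E2 := EuclideanSpace ℝ (Fin 2)

lemma gram2 (a b c : E2) :
    ‖a‖ ^ 2 * ‖b‖ ^ 2 * ‖c‖ ^ 2 + 2 * ⟪a, b⟫ * ⟪a, c⟫ * ⟪b, c⟫
      - ‖a‖ ^ 2 * ⟪b, c⟫ ^ 2 - ‖b‖ ^ 2 * ⟪a, c⟫ ^ 2 - ‖c‖ ^ 2 * ⟪a, b⟫ ^ 2 = 0 := by
  simp only [EuclideanSpace.norm_sq_eq, PiLp.inner_apply, Fin.sum_univ_two, Real.norm_eq_abs,
    sq_abs, RCLike.inner_apply, conj_trivial]
  ring

lemma gram_pos {A B C p q r : ℝ} (hA : 0 < A) (hB : 0 < B) (hC : 0 < C)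
    (hp : 4 * p ^ 2 < A * B) (hq : 4 * q ^ 2 < A * C) (hr : 4 * r ^ 2 < B * C) :
    0 < A * B * C + 2 * p * q * r - A * r ^ 2 - B * q ^ 2 - C * p ^ 2 := by
  have h1 : A * (4 * r ^ 2) < A * (B * C) := mul_lt_mul_of_pos_left hr hA
  have h2 : B * (4 * q ^ 2) < B * (A * C) := mul_lt_mul_of_pos_left hq hB
  have h3 : C * (4 * p ^ 2) < C * (A * B) := mul_lt_mul_of_pos_left hp hC
  have hABC : 0 < A * B * C := by positivity
  have h4 : (8 * (p * q * r)) ^ 2 < (A * B * C) ^ 2 := by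
    have e1 : (8 * (p * q * r)) ^ 2 = (4 * p ^ 2) * (4 * q ^ 2) * (4 * r ^ 2) := by ring
    have e2 : (A * B * C) ^ 2 = (A * B) * (A * C) * (B * C) := by ring
    rw [e1, e2]
    have hp0 : 0 ≤ 4 * p ^ 2 := by positivity
    have hq0 : 0 ≤ 4 * q ^ 2 := by positivity
    have hr0 : 0 ≤ 4 * r ^ 2 := by positivity
    have hAB : 0 < A * B := by positivity
    have hAC : 0 < A * C := by positivity
    have hBC : 0 < B * C := by positivity
    calc (4 * p ^ 2) * (4 * q ^ 2) * (4 * r ^ 2) ≤ (A * B) * (A * C) * (4 * r ^ 2) := by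
          gcongr
      _ < (A * B) * (A * C) * (B * C) := by
          apply mul_lt_mul_of_pos_left hr; positivity
  have h5 : |8 * (p * q * r)| < |A * B * C| := sq_lt_sq.1 h4
  rw [abs_of_pos hABC] at h5
  have h6 := (abs_lt.1 h5).1
  nlinarith

lemma planar (a b c : E2) (ha : ‖a‖ ≤ 1) (hb : ‖b‖ ≤ 1) (hc : ‖c‖ ≤ 1) :
    ‖a + b‖ ≤ 1 ∨ ‖a - b‖ ≤ 1 ∨ ‖a + c‖ ≤ 1 ∨ ‖a - c‖ ≤ 1 ∨ ‖b + c‖ ≤ 1 ∨ ‖b - c‖ ≤ 1 := by
  by_contra hcon
  simp only [not_or, not_le] at hcon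
  obtain ⟨h1, h2, h3, h4, h5, h6⟩ := hcon
  have sq1 : ∀ x : E2, 1 < ‖x‖ → 1 < ‖x‖ ^ 2 := fun x hx => by nlinarith [norm_nonneg x]
  have hA : ‖a‖ ^ 2 ≤ 1 := by nlinarith [norm_nonneg a]
  have hB : ‖b‖ ^ 2 ≤ 1 := by nlinarith [norm_nonneg b]
  have hC : ‖c‖ ^ 2 ≤ 1 := by nlinarith [norm_nonneg c]
  have e1 := sq1 _ h1
  have e2 := sq1 _ h2
  have e3 := sq1 _ h3
  have e4 := sq1 _ h4
  have e5 := sq1 _ h5
  have e6 := sq1 _ h6
  rw [norm_add_sq_real] at e1 e3 e5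
  rw [norm_sub_sq_real] at e2 e4 e6
  set A := ‖a‖ ^ 2
  set B := ‖b‖ ^ 2
  set C := ‖c‖ ^ 2
  set p := ⟪a, b⟫
  set q := ⟪a, c⟫
  set r := ⟪b, c⟫
  have key : ∀ {X Y z : ℝ}, X ≤ 1 → Y ≤ 1 → 1 < X + 2 * z + Y → 1 < X - 2 * z + Y →
      0 < X ∧ 0 < Y ∧ 4 * z ^ 2 < X * Y := by
    intro X Y z hX hY h h'
    have hz1 : 2 * |z| < X := by
      rcases abs_cases z with ⟨hz, _⟩ | ⟨hz, _⟩ <;> rw [hz] <;> linarith
    have hz2 : 2 * |z| < Y := by
      rcases abs_cases z with ⟨hz, _⟩ | ⟨hz, _⟩ <;> rw [hz] <;> linarith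
    have hz0 : 0 ≤ 2 * |z| := by positivity
    refine ⟨by linarith, by linarith, ?_⟩
    have : (2 * |z|) * (2 * |z|) < X * Y := by
      apply mul_lt_mul'' hz1 hz2 hz0 hz0
    have e : (2 * |z|) * (2 * |z|) = 4 * z ^ 2 := by
      rw [← sq_abs z]; ring
    linarith
  obtain ⟨pA, pB, hp⟩ := key hA hB e1 e2
  obtain ⟨_, pC, hq⟩ := key hA hC e3 e4
  obtain ⟨_, _, hr⟩ := key hB hC e5 e6
  have := gram_pos pA pB pC hp hq hr
  have g := gram2 a b c
  linarith

theorem key2 : ∀ (N : ℕ) (v : Fin N → E2), (∀ i, ‖v i‖ ≤ 1) → ∀ m w : E2, ‖m‖ ≤ 1 → ‖w‖ ≤ 1 →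
    Good 3 N v (m + w) ∨ Good 3 N v (m - w) := by
  intro N
  induction N with
  | zero =>
    intro v _ m w hm hw
    have hpar := parallelogram_law_with_norm ℝ m w
    have hm2 : ‖m‖ * ‖m‖ ≤ 1 := by nlinarith [norm_nonneg m]
    have hw2 : ‖w‖ * ‖w‖ ≤ 1 := by nlinarith [norm_nonneg w]
    by_cases h : ‖m + w‖ ^ 2 ≤ 3
    · left; exact (good_zero v _).2 h
    · right
      refine (good_zero v _).2 ?_
      push Not at h
      nlinarith
  | succ N ih =>
    intro v hv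
    have hu : ‖v 0‖ ≤ 1 := hv 0
    have hv' : ∀ i, ‖Fin.tail v i‖ ≤ 1 := fun i => hv _
    have IH := ih (Fin.tail v) hv'
    have alive : ∀ m w : E2, ‖m‖ ≤ 1 → ‖w‖ ≤ 1 → ‖m + w‖ ^ 2 ≤ 3 → ‖m - w‖ ^ 2 ≤ 3 →
        Good 3 (N + 1) v (m + w) ∨ Good 3 (N + 1) v (m - w) := by
      intro m w hm hw h1 h2
      rcases planar m w (v 0) hm hw hu with h | h | h | h | h | h
      · left
        exact (good_succ v _).2 ⟨h1, IH (m + w) (v 0) h hu⟩
      · right
        exact (good_succ v _).2 ⟨h2, IH (m - w) (v 0) h hu⟩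
      · rcases IH (m + v 0) w h hw with g | g
        · left
          refine (good_succ v _).2 ⟨h1, Or.inl ?_⟩
          have e : m + w + v 0 = m + v 0 + w := by abel
          rw [e]; exact g
        · right
          refine (good_succ v _).2 ⟨h2, Or.inl ?_⟩
          have e : m - w + v 0 = m + v 0 - w := by abel
          rw [e]; exact g
      · rcases IH (m - v 0) w h hw with g | g
        · left
          refine (good_succ v _).2 ⟨h1, Or.inr ?_⟩
          have e : m + w - v 0 = m - v 0 + w := by abel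
          rw [e]; exact g
        · right
          refine (good_succ v _).2 ⟨h2, Or.inr ?_⟩
          have e : m - w - v 0 = m - v 0 - w := by abel
          rw [e]; exact g
      · rcases IH m (w + v 0) hm h with g | g
        · left
          refine (good_succ v _).2 ⟨h1, Or.inl ?_⟩
          have e : m + w + v 0 = m + (w + v 0) := by abel
          rw [e]; exact g
        · right
          refine (good_succ v _).2 ⟨h2, Or.inr ?_⟩
          have e : m - w - v 0 = m - (w + v 0) := by abel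
          rw [e]; exact g
      · rcases IH m (w - v 0) hm h with g | g
        · left
          refine (good_succ v _).2 ⟨h1, Or.inr ?_⟩
          have e : m + w - v 0 = m + (w - v 0) := by abel
          rw [e]; exact g
        · right
          refine (good_succ v _).2 ⟨h2, Or.inl ?_⟩
          have e : m - w + v 0 = m - (w - v 0) := by abel
          rw [e]; exact g
    intro m w hm hw
    have hpar := parallelogram_law_with_norm ℝ m w
    have hm2 : ‖m‖ * ‖m‖ ≤ 1 := by nlinarith [norm_nonneg m]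
    have hw2 : ‖w‖ * ‖w‖ ≤ 1 := by nlinarith [norm_nonneg w]
    have single : ∀ x : E2, ‖x‖ ^ 2 ≤ 1 → Good 3 (N + 1) v x := by
      intro x hx
      have hx1 : ‖x‖ ≤ 1 := by
        have := abs_le_of_sq_le_sq' (a := ‖x‖) (b := 1) (by simpa using hx) (by norm_num)
        exact this.2
      have := alive x 0 hx1 (by simp) (by simp; linarith) (by simp; linarith)
      simpa using this
    by_cases h1 : ‖m + w‖ ^ 2 ≤ 3
    · by_cases h2 : ‖m - w‖ ^ 2 ≤ 3
      · exact alive m w hm hw h1 h2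
      · left
        push Not at h2
        exact single _ (by nlinarith)
    · right
      push Not at h1
      exact single _ (by nlinarith)

theorem sigma_two_le : sigma 2 ≤ ENNReal.ofReal (Real.sqrt 3) := by
  refine sigma_le_of_good fun N v hv => ?_
  have := key2 N v hv 0 0 (by simp) (by simp)
  simpa using this

end Vale.Agent.P262
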