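import Vale.Agent.P262.Lower

/-!
# `σ(3) ≤ √6`: the merging argument in dimension three

Keep a buffer of at most three vectors of the unit ball (four slots, one of them zero); the current
prefix is a signed sum of the buffer, the signs being decided later.  Four vectors of the unit ball of
`ℝ³` always admit a merge: a signed sum of at least two of them of norm at most one.
-/

namespace Vale.Agent.P262

open scoped ENNReal RealInnerProductSpace

abbrev E3 := EuclideanSpace ℝ (Fin 3)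

section gen

variable {V : Type*} [NormedAddCommGroup V] [InnerProductSpace ℝ V]

/-- (T1) expand with `norm_add_sq_real`, `inner_add_left`, `inner_smul_left`, `inner_smul_right`, `norm_smul`. -/
lemma quad3 (a b c : V) (α β γ : ℝ) :
    ‖α • a + β • b + γ • c‖ ^ 2 = α ^ 2 * ‖a‖ ^ 2 + β ^ 2 * ‖b‖ ^ 2 + γ ^ 2 * ‖c‖ ^ 2
      + 2 * (α * β) * ⟪a, b⟫ + 2 * (α * γ) * ⟪a, c⟫ + 2 * (β * γ) * ⟪b, c⟫ := by
  rw [norm_add_sq_real, norm_add_sq_real, inner_add_left]
  simp only [inner_smul_left, inner_smul_right, norm_smul, mul_pow, Real.norm_eq_abs, sq_abs,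
    RCLike.conj_to_real]
  ring

/-- (T2) real core of the rounding argument.  `q s1 s2 s3` is the squared norm of
`(s1 - x) a + (s2 - y) b + (s3 - z) c`.  Weights `π_S = ∏_{i ∈ S} x_i ∏_{i ∉ S} (1 - x_i)`.  Identity (ring):
`∑_S π_S q_S = x (1-x) A + y (1-y) B + z (1-z) C`; `q_∅ ≥ 0` is the hypothesis `h0`;
`x(1-x) + y(1-y) + z(1-z) ≤ 1 - (1-x)(1-y)(1-z)` because `x²+y²+z² - xy - xz - yz + xyz ≥ 0`.
So `∑_{S ≠ ∅} π_S (q_S - 1) ≤ 0`; if all `q_S > 1` every `π_S = 0` (`S ≠ ∅`), so `(1-x)(1-y)(1-z) = 1`, so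
`x = y = z = 0` and `q_{100} = A ≤ 1`, contradiction. -/
lemma core_real {A B C p q r x y z : ℝ} (hA : A ≤ 1) (hB : B ≤ 1) (hC : C ≤ 1)
    (hA0 : 0 ≤ A) (hB0 : 0 ≤ B) (hC0 : 0 ≤ C)
    (hx : 0 ≤ x) (hx1 : x ≤ 1) (hy : 0 ≤ y) (hy1 : y ≤ 1) (hz : 0 ≤ z) (hz1 : z ≤ 1)
    (h0 : 0 ≤ x ^ 2 * A + y ^ 2 * B + z ^ 2 * C + 2 * (x * y) * p + 2 * (x * z) * q
      + 2 * (y * z) * r) :
    ∃ s1 s2 s3 : ℝ, (s1 = 0 ∨ s1 = 1) ∧ (s2 = 0 ∨ s2 = 1) ∧ (s3 = 0 ∨ s3 = 1) ∧
      (s1 ≠ 0 ∨ s2 ≠ 0 ∨ s3 ≠ 0) ∧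
      (s1 - x) ^ 2 * A + (s2 - y) ^ 2 * B + (s3 - z) ^ 2 * C + 2 * ((s1 - x) * (s2 - y)) * p
        + 2 * ((s1 - x) * (s3 - z)) * q + 2 * ((s2 - y) * (s3 - z)) * r ≤ 1 := by
  have h3 : 0 ≤ x ^ 2 + y ^ 2 + z ^ 2 - x * y - x * z - y * z + x * y * z := by
    have hxyz : 0 ≤ x * y * z := by positivity
    nlinarith [sq_nonneg (x - y), sq_nonneg (x - z), sq_nonneg (y - z)]
  have vA : x * (1 - x) * A ≤ x * (1 - x) :=
    mul_le_of_le_one_right (mul_nonneg hx (by linarith)) hA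
  have vB : y * (1 - y) * B ≤ y * (1 - y) :=
    mul_le_of_le_one_right (mul_nonneg hy (by linarith)) hB
  have vC : z * (1 - z) * C ≤ z * (1 - z) :=
    mul_le_of_le_one_right (mul_nonneg hz (by linarith)) hC
  by_contra hcon
  push Not at hcon
  have o : (1 : ℝ) ≠ 0 := one_ne_zero
  have q100 := hcon 1 0 0 (Or.inr rfl) (Or.inl rfl) (Or.inl rfl) (Or.inl o)
  have q010 := hcon 0 1 0 (Or.inl rfl) (Or.inr rfl) (Or.inl rfl) (Or.inr (Or.inl o))
  have q001 := hcon 0 0 1 (Or.inl rfl) (Or.inl rfl) (Or.inr rfl) (Or.inr (Or.inr o))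
  have q110 := hcon 1 1 0 (Or.inr rfl) (Or.inr rfl) (Or.inl rfl) (Or.inl o)
  have q101 := hcon 1 0 1 (Or.inr rfl) (Or.inl rfl) (Or.inr rfl) (Or.inl o)
  have q011 := hcon 0 1 1 (Or.inl rfl) (Or.inr rfl) (Or.inr rfl) (Or.inr (Or.inl o))
  have q111 := hcon 1 1 1 (Or.inr rfl) (Or.inr rfl) (Or.inr rfl) (Or.inl o)
  have ux : 0 ≤ 1 - x := by linarith
  have uy : 0 ≤ 1 - y := by linarith
  have uz : 0 ≤ 1 - z := by linarith
  have w100 : 0 ≤ x * (1 - y) * (1 - z) := by positivity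
  have w010 : 0 ≤ (1 - x) * y * (1 - z) := by positivity
  have w001 : 0 ≤ (1 - x) * (1 - y) * z := by positivity
  have w110 : 0 ≤ x * y * (1 - z) := by positivity
  have w101 : 0 ≤ x * (1 - y) * z := by positivity
  have w011 : 0 ≤ (1 - x) * y * z := by positivity
  have w111 : 0 ≤ x * y * z := by positivity
  have w000 : 0 ≤ (1 - x) * (1 - y) * (1 - z) := by positivity
  have t100 := mul_nonneg w100 (sub_pos.2 q100).le
  have t010 := mul_nonneg w010 (sub_pos.2 q010).le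
  have t001 := mul_nonneg w001 (sub_pos.2 q001).le
  have t110 := mul_nonneg w110 (sub_pos.2 q110).le
  have t101 := mul_nonneg w101 (sub_pos.2 q101).le
  have t011 := mul_nonneg w011 (sub_pos.2 q011).le
  have t111 := mul_nonneg w111 (sub_pos.2 q111).le
  have t000 := mul_nonneg w000 h0
  have hsum : x * (1 - y) * (1 - z) * ((1 - x) ^ 2 * A + (0 - y) ^ 2 * B + (0 - z) ^ 2 * C + 2 * ((1 - x) * (0 - y)) * p
        + 2 * ((1 - x) * (0 - z)) * q + 2 * ((0 - y) * (0 - z)) * r - 1)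
      + (1 - x) * y * (1 - z) * ((0 - x) ^ 2 * A + (1 - y) ^ 2 * B + (0 - z) ^ 2 * C + 2 * ((0 - x) * (1 - y)) * p
        + 2 * ((0 - x) * (0 - z)) * q + 2 * ((1 - y) * (0 - z)) * r - 1)
      + (1 - x) * (1 - y) * z * ((0 - x) ^ 2 * A + (0 - y) ^ 2 * B + (1 - z) ^ 2 * C + 2 * ((0 - x) * (0 - y)) * p
        + 2 * ((0 - x) * (1 - z)) * q + 2 * ((0 - y) * (1 - z)) * r - 1)
      + x * y * (1 - z) * ((1 - x) ^ 2 * A + (1 - y) ^ 2 * B + (0 - z) ^ 2 * C + 2 * ((1 - x) * (1 - y)) * p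
        + 2 * ((1 - x) * (0 - z)) * q + 2 * ((1 - y) * (0 - z)) * r - 1)
      + x * (1 - y) * z * ((1 - x) ^ 2 * A + (0 - y) ^ 2 * B + (1 - z) ^ 2 * C + 2 * ((1 - x) * (0 - y)) * p
        + 2 * ((1 - x) * (1 - z)) * q + 2 * ((0 - y) * (1 - z)) * r - 1)
      + (1 - x) * y * z * ((0 - x) ^ 2 * A + (1 - y) ^ 2 * B + (1 - z) ^ 2 * C + 2 * ((0 - x) * (1 - y)) * p
        + 2 * ((0 - x) * (1 - z)) * q + 2 * ((1 - y) * (1 - z)) * r - 1)
      + x * y * z * ((1 - x) ^ 2 * A + (1 - y) ^ 2 * B + (1 - z) ^ 2 * C + 2 * ((1 - x) * (1 - y)) * p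
        + 2 * ((1 - x) * (1 - z)) * q + 2 * ((1 - y) * (1 - z)) * r - 1)
      = x * (1 - x) * A + y * (1 - y) * B + z * (1 - z) * C
        - (1 - x) * (1 - y) * (1 - z) * (x ^ 2 * A + y ^ 2 * B + z ^ 2 * C + 2 * (x * y) * p
          + 2 * (x * z) * q + 2 * (y * z) * r)
        - (1 - (1 - x) * (1 - y) * (1 - z)) := by ring
  have hle : x * (1 - x) * A + y * (1 - y) * B + z * (1 - z) * C
        - (1 - x) * (1 - y) * (1 - z) * (x ^ 2 * A + y ^ 2 * B + z ^ 2 * C + 2 * (x * y) * p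
          + 2 * (x * z) * q + 2 * (y * z) * r)
        - (1 - (1 - x) * (1 - y) * (1 - z)) ≤ 0 := by
    have e : x * (1 - x) + y * (1 - y) + z * (1 - z) - (1 - (1 - x) * (1 - y) * (1 - z))
        = -(x ^ 2 + y ^ 2 + z ^ 2 - x * y - x * z - y * z + x * y * z) := by ring
    linarith
  have z100 : x * (1 - y) * (1 - z) = 0 := by
    rcases mul_eq_zero.1 (le_antisymm (by linarith) t100) with h | h
    · exact h
    · exact absurd h (sub_pos.2 q100).ne'
  have z110 : x * y * (1 - z) = 0 := by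
    rcases mul_eq_zero.1 (le_antisymm (by linarith) t110) with h | h
    · exact h
    · exact absurd h (sub_pos.2 q110).ne'
  have z101 : x * (1 - y) * z = 0 := by
    rcases mul_eq_zero.1 (le_antisymm (by linarith) t101) with h | h
    · exact h
    · exact absurd h (sub_pos.2 q101).ne'
  have z111 : x * y * z = 0 := by
    rcases mul_eq_zero.1 (le_antisymm (by linarith) t111) with h | h
    · exact h
    · exact absurd h (sub_pos.2 q111).ne'
  have z010 : (1 - x) * y * (1 - z) = 0 := by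
    rcases mul_eq_zero.1 (le_antisymm (by linarith) t010) with h | h
    · exact h
    · exact absurd h (sub_pos.2 q010).ne'
  have z011 : (1 - x) * y * z = 0 := by
    rcases mul_eq_zero.1 (le_antisymm (by linarith) t011) with h | h
    · exact h
    · exact absurd h (sub_pos.2 q011).ne'
  have z001 : (1 - x) * (1 - y) * z = 0 := by
    rcases mul_eq_zero.1 (le_antisymm (by linarith) t001) with h | h
    · exact h
    · exact absurd h (sub_pos.2 q001).ne'
  have hx0 : x = 0 := by linear_combination z100 + z110 + z101 + z111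
  have hy0 : y = 0 := by linear_combination z010 + z110 + z011 + z111
  have hz0 : z = 0 := by linear_combination z001 + z101 + z011 + z111
  subst hx0 hy0 hz0
  norm_num at q100
  linarith


/-- (T3) from `core_real` and `quad3` (`h0` is `quad3` for `(-x) a + (-y) b + (-z) c`, a square). -/
lemma core01 (a b c : V) (ha : ‖a‖ ≤ 1) (hb : ‖b‖ ≤ 1) (hc : ‖c‖ ≤ 1) {x y z : ℝ}
    (hx : 0 ≤ x) (hx1 : x ≤ 1) (hy : 0 ≤ y) (hy1 : y ≤ 1) (hz : 0 ≤ z) (hz1 : z ≤ 1) :
    ∃ s1 s2 s3 : ℝ, (s1 = 0 ∨ s1 = 1) ∧ (s2 = 0 ∨ s2 = 1) ∧ (s3 = 0 ∨ s3 = 1) ∧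
      (s1 ≠ 0 ∨ s2 ≠ 0 ∨ s3 ≠ 0) ∧ ‖(s1 - x) • a + (s2 - y) • b + (s3 - z) • c‖ ≤ 1 := by
  have hA : ‖a‖ ^ 2 ≤ 1 := by nlinarith [norm_nonneg a]
  have hB : ‖b‖ ^ 2 ≤ 1 := by nlinarith [norm_nonneg b]
  have hC : ‖c‖ ^ 2 ≤ 1 := by nlinarith [norm_nonneg c]
  have h0 : 0 ≤ x ^ 2 * ‖a‖ ^ 2 + y ^ 2 * ‖b‖ ^ 2 + z ^ 2 * ‖c‖ ^ 2 + 2 * (x * y) * ⟪a, b⟫
      + 2 * (x * z) * ⟪a, c⟫ + 2 * (y * z) * ⟪b, c⟫ := by
    rw [← quad3 a b c x y z]
    positivity
  obtain ⟨s1, s2, s3, h1, h2, h3, h4, h5⟩ := core_real hA hB hC (sq_nonneg _) (sq_nonneg _)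
    (sq_nonneg _) hx hx1 hy hy1 hz hz1 h0
  refine ⟨s1, s2, s3, h1, h2, h3, h4, ?_⟩
  rw [← quad3 a b c (s1 - x) (s2 - y) (s3 - z)] at h5
  by_contra hcon
  push Not at hcon
  nlinarith [norm_nonneg ((s1 - x) • a + (s2 - y) • b + (s3 - z) • c)]

/-- (T4) signs: apply `core01` to `sx • a`, `sy • b`, `sz • c`, `|x|`, `|y|`, `|z|`, where `sx = 1` if `0 ≤ x` and `-1`
otherwise (`x = sx * |x|`); answer `s1 = sx * s1'`, and `(s1' - |x|) • (sx • a) = (s1 - x) • a`. -/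
lemma corepm (a b c : V) (ha : ‖a‖ ≤ 1) (hb : ‖b‖ ≤ 1) (hc : ‖c‖ ≤ 1) {x y z : ℝ}
    (hx : |x| ≤ 1) (hy : |y| ≤ 1) (hz : |z| ≤ 1) :
    ∃ s1 s2 s3 : ℝ, (s1 = -1 ∨ s1 = 0 ∨ s1 = 1) ∧ (s2 = -1 ∨ s2 = 0 ∨ s2 = 1) ∧
      (s3 = -1 ∨ s3 = 0 ∨ s3 = 1) ∧ (s1 ≠ 0 ∨ s2 ≠ 0 ∨ s3 ≠ 0) ∧
      ‖(s1 - x) • a + (s2 - y) • b + (s3 - z) • c‖ ≤ 1 := by
  have hsgn : ∀ t : ℝ, ∃ s : ℝ, (s = 1 ∨ s = -1) ∧ t = s * |t| := by
    intro t
    rcases le_total 0 t with h | h
    · exact ⟨1, Or.inl rfl, by rw [abs_of_nonneg h, one_mul]⟩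
    · exact ⟨-1, Or.inr rfl, by rw [abs_of_nonpos h]; ring⟩
  have hnorm : ∀ (s : ℝ) (u : V), (s = 1 ∨ s = -1) → ‖u‖ ≤ 1 → ‖s • u‖ ≤ 1 := by
    intro s u hs hu
    rcases hs with rfl | rfl
    · simpa using hu
    · simpa using hu
  have hval : ∀ s t : ℝ, (s = 1 ∨ s = -1) → (t = 0 ∨ t = 1) →
      (s * t = -1 ∨ s * t = 0 ∨ s * t = 1) := by
    intro s t hs ht
    rcases hs with rfl | rfl <;> rcases ht with rfl | rfl <;> norm_num
  have hnz : ∀ s t : ℝ, (s = 1 ∨ s = -1) → t ≠ 0 → s * t ≠ 0 := by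
    intro s t hs ht
    rcases hs with rfl | rfl
    · simpa using ht
    · simpa using ht
  obtain ⟨sx, hsx, ex⟩ := hsgn x
  obtain ⟨sy, hsy, ey⟩ := hsgn y
  obtain ⟨sz, hsz, ez⟩ := hsgn z
  obtain ⟨s1, s2, s3, h1, h2, h3, hne, hle⟩ := core01 (sx • a) (sy • b) (sz • c)
    (hnorm sx a hsx ha) (hnorm sy b hsy hb) (hnorm sz c hsz hc)
    (abs_nonneg x) hx (abs_nonneg y) hy (abs_nonneg z) hz
  refine ⟨sx * s1, sy * s2, sz * s3, hval sx s1 hsx h1, hval sy s2 hsy h2, hval sz s3 hsz h3, ?_, ?_⟩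
  · rcases hne with h | h | h
    · exact Or.inl (hnz sx s1 hsx h)
    · exact Or.inr (Or.inl (hnz sy s2 hsy h))
    · exact Or.inr (Or.inr (hnz sz s3 hsz h))
  · have e1 : (sx * s1 - x) • a = (s1 - |x|) • (sx • a) := by
      rw [smul_smul]; congr 1; nth_rewrite 1 [ex]; ring
    have e2 : (sy * s2 - y) • b = (s2 - |y|) • (sy • b) := by
      rw [smul_smul]; congr 1; nth_rewrite 1 [ey]; ring
    have e3 : (sz * s3 - z) • c = (s3 - |z|) • (sz • c) := by
      rw [smul_smul]; congr 1; nth_rewrite 1 [ez]; ring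
    rw [e1, e2, e3]
    exact hle

end gen

/-- (T5) four vectors of `ℝ³` are linearly dependent (`LinearIndependent.fintype_card_le_finrank`,
`Fintype.not_linearIndependent_iff`, `finrank_euclideanSpace_fin`); divide by a coefficient of largest modulus
(`Finite.exists_max` for `fun i => |g i|`). -/
lemma exists_dep (w : Fin 4 → E3) :
    ∃ (j : Fin 4) (z : Fin 4 → ℝ), z j = 1 ∧ (∀ i, |z i| ≤ 1) ∧ ∑ i, z i • w i = 0 := by
  have hnl : ¬ LinearIndependent ℝ w := by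
    intro h
    have := h.fintype_card_le_finrank
    simp at this
  rw [Fintype.not_linearIndependent_iff] at hnl
  obtain ⟨g, hg, i0, hi0⟩ := hnl
  obtain ⟨j, hj⟩ := Finite.exists_max (fun i => |g i|)
  have hgj : 0 < |g j| := lt_of_lt_of_le (abs_pos.mpr hi0) (hj i0)
  have hgj0 : g j ≠ 0 := abs_pos.mp hgj
  refine ⟨j, fun i => g i / g j, div_self hgj0, fun i => ?_, ?_⟩
  · rw [abs_div, div_le_one hgj]; exact hj i
  · have : ∑ i, (g i / g j) • w i = (g j)⁻¹ • ∑ i, g i • w i := by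
      rw [Finset.smul_sum]
      apply Finset.sum_congr rfl
      intro i _
      rw [smul_smul, div_eq_inv_mul]
    rw [this, hg, smul_zero]

private lemma merge4_aux (w : Fin 4 → E3) (hw : ∀ i, ‖w i‖ ≤ 1) (z : Fin 4 → ℝ)
    (hz : ∀ i, |z i| ≤ 1) (j a b c : Fin 4)
    (hsum : ∀ f : Fin 4 → E3, ∑ i, f i = f j + f a + f b + f c)
    (hja : a ≠ j) (hjb : b ≠ j) (hjc : c ≠ j) (hab : b ≠ a) (hac : c ≠ a) (hbc : c ≠ b)
    (hzj : z j = 1) (h0 : ∑ i, z i • w i = 0) :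
    ∃ η : Fin 4 → ℝ, (∀ i, η i = -1 ∨ η i = 0 ∨ η i = 1) ∧ (∃ i j, i ≠ j ∧ η i ≠ 0 ∧ η j ≠ 0) ∧
      ‖∑ i, η i • w i‖ ≤ 1 := by
  obtain ⟨s1, s2, s3, h1, h2, h3, hne, hn⟩ :=
    corepm (w a) (w b) (w c) (hw a) (hw b) (hw c) (hz a) (hz b) (hz c)
  have ej : (fun i : Fin 4 => if i = j then (1 : ℝ) else if i = a then s1 else if i = b then s2
      else s3) j = 1 := by simp
  have ea : (fun i : Fin 4 => if i = j then (1 : ℝ) else if i = a then s1 else if i = b then s2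
      else s3) a = s1 := by simp [hja]
  have eb : (fun i : Fin 4 => if i = j then (1 : ℝ) else if i = a then s1 else if i = b then s2
      else s3) b = s2 := by simp [hjb, hab]
  have ec : (fun i : Fin 4 => if i = j then (1 : ℝ) else if i = a then s1 else if i = b then s2
      else s3) c = s3 := by simp [hjc, hac, hbc]
  refine ⟨fun i => if i = j then (1 : ℝ) else if i = a then s1 else if i = b then s2 else s3,
    ?_, ?_, ?_⟩
  · intro i
    show (if i = j then (1 : ℝ) else if i = a then s1 else if i = b then s2 else s3) = -1 ∨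
      (if i = j then (1 : ℝ) else if i = a then s1 else if i = b then s2 else s3) = 0 ∨
      (if i = j then (1 : ℝ) else if i = a then s1 else if i = b then s2 else s3) = 1
    split_ifs
    · exact Or.inr (Or.inr rfl)
    · exact h1
    · exact h2
    · exact h3
  · rcases hne with h | h | h
    · exact ⟨a, j, hja, by rw [ea]; exact h, by rw [ej]; exact one_ne_zero⟩
    · exact ⟨b, j, hjb, by rw [eb]; exact h, by rw [ej]; exact one_ne_zero⟩
    · exact ⟨c, j, hjc, by rw [ec]; exact h, by rw [ej]; exact one_ne_zero⟩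
  · rw [hsum] at h0 ⊢
    rw [ej, ea, eb, ec]
    rw [hzj] at h0
    have e : (1 : ℝ) • w j + s1 • w a + s2 • w b + s3 • w c =
        ((s1 - z a) • w a + (s2 - z b) • w b + (s3 - z c) • w c) +
          ((1 : ℝ) • w j + z a • w a + z b • w b + z c • w c) := by module
    rw [e, h0, add_zero]
    exact hn

/-- (T6) **merge lemma**.  `j`, `z` from `exists_dep`; `fin_cases j`; in each case `corepm` for the three other vectors with
the coefficients `- z i`... precisely: `w j = - ∑_{i ≠ j} z i • w i` (`Fin.sum_univ_four`), `corepm` with `x = z i` gives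
`‖∑_{i ≠ j} (s_i - z i) • w i‖ ≤ 1`, and this vector is `w j + ∑_{i ≠ j} s_i • w i`; `η = ![..]` with `η j = 1`. -/
lemma merge4 (w : Fin 4 → E3) (hw : ∀ i, ‖w i‖ ≤ 1) :
    ∃ η : Fin 4 → ℝ, (∀ i, η i = -1 ∨ η i = 0 ∨ η i = 1) ∧ (∃ i j, i ≠ j ∧ η i ≠ 0 ∧ η j ≠ 0) ∧
      ‖∑ i, η i • w i‖ ≤ 1 := by
  obtain ⟨j, z, hzj, hz, h0⟩ := exists_dep w
  fin_cases j
  · exact merge4_aux w hw z hz 0 1 2 3 (fun f => by rw [Fin.sum_univ_four])
      (by decide) (by decide) (by decide) (by decide) (by decide) (by decide) hzj h0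
  · exact merge4_aux w hw z hz 1 0 2 3 (fun f => by rw [Fin.sum_univ_four]; abel)
      (by decide) (by decide) (by decide) (by decide) (by decide) (by decide) hzj h0
  · exact merge4_aux w hw z hz 2 0 1 3 (fun f => by rw [Fin.sum_univ_four]; abel)
      (by decide) (by decide) (by decide) (by decide) (by decide) (by decide) hzj h0
  · exact merge4_aux w hw z hz 3 0 1 2 (fun f => by rw [Fin.sum_univ_four]; abel)
      (by decide) (by decide) (by decide) (by decide) (by decide) (by decide) hzj h0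

/-- some signed sum of the four slots is a good starting point -/
def Q4 (T : ℝ) (N : ℕ) (v : Fin N → E3) (w : Fin 4 → E3) : Prop :=
  ∃ ε : Fin 4 → ℝ, (∀ i, ε i = 1 ∨ ε i = -1) ∧ Good T N v (∑ i, ε i • w i)

/-- (T7) `η`, `i ≠ j` from `merge4`, `m = ∑ η k • w k`.  New slots `w' k = if k = i then m else if η k = 0 then w k else 0`
(so `w' j = 0`).  `ih` gives `ε'`; take `ε k = if η k = 0 then ε' k else ε' i * η k`.  Then
`∑ ε k • w k = ∑ ε' k • w' k` (`Finset.sum` manipulations or `Fin.sum_univ_four` + `fin_cases i`). -/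
lemma q4_of_ih {T : ℝ} {N : ℕ} {v : Fin N → E3}
    (ih : ∀ w : Fin 4 → E3, (∀ i, ‖w i‖ ≤ 1) → (∃ k, w k = 0) → Q4 T N v w)
    (w : Fin 4 → E3) (hw : ∀ i, ‖w i‖ ≤ 1) : Q4 T N v w := by
  classical
  obtain ⟨η, hη, ⟨i, j, hij, hηi, hηj⟩, hm⟩ := merge4 w hw
  have hw' : ∀ k, ‖(if k = i then ∑ l, η l • w l else if η k = 0 then w k else 0 : E3)‖ ≤ 1 := by
    intro k
    split_ifs
    · exact hm
    · exact hw k
    · simp
  have hz : ∃ k, (if k = i then ∑ l, η l • w l else if η k = 0 then w k else 0 : E3) = 0 :=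
    ⟨j, by rw [if_neg (Ne.symm hij), if_neg hηj]⟩
  obtain ⟨ε', hε', hg⟩ :=
    ih (fun k => if k = i then ∑ l, η l • w l else if η k = 0 then w k else 0) hw' hz
  refine ⟨fun k => if η k = 0 then ε' k else ε' i * η k, ?_, ?_⟩
  · intro k
    by_cases h0 : η k = 0
    · simp only [h0, if_true]
      exact hε' k
    · simp only [h0, if_false]
      rcases hη k with h | h | h
      · rcases hε' i with e | e <;> rw [h, e] <;> norm_num
      · exact absurd h h0
      · rcases hε' i with e | e <;> rw [h, e] <;> norm_num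
  · have h1 : ∀ k, ε' k • (if k = i then ∑ l, η l • w l else if η k = 0 then w k else 0 : E3)
        = (if k = i then ε' i • ∑ l, η l • w l else 0) + (if η k = 0 then ε' k • w k else 0) := by
      intro k
      by_cases hk : k = i
      · subst hk
        rw [if_pos rfl, if_pos rfl, if_neg hηi, add_zero]
      · by_cases h0 : η k = 0
        · rw [if_neg hk, if_pos h0, if_neg hk, if_pos h0, zero_add]
        · rw [if_neg hk, if_neg h0, if_neg hk, if_neg h0, smul_zero, add_zero]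
    have hsum : ∑ k, (if η k = 0 then ε' k else ε' i * η k) • w k
        = ∑ k, ε' k • (if k = i then ∑ l, η l • w l else if η k = 0 then w k else 0 : E3) := by
      rw [Finset.sum_congr rfl (fun k _ => h1 k), Finset.sum_add_distrib,
        Finset.sum_ite_eq' Finset.univ i, if_pos (Finset.mem_univ i), Finset.smul_sum,
        ← Finset.sum_add_distrib]
      apply Finset.sum_congr rfl
      intro k _
      by_cases h0 : η k = 0
      · rw [if_pos h0, if_pos h0, h0, zero_smul, smul_zero, zero_add]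
      · rw [if_neg h0, if_neg h0, add_zero, smul_smul]
    show Good T N v (∑ k, (if η k = 0 then ε' k else ε' i * η k) • w k)
    rw [hsum]
    exact hg

/-- (T8) `W = Function.update w k (v 0)`; `h4 W` gives `ε`; `∑ ε i • W i = ∑ ε i • w i + ε k • v 0` because `w k = 0`
(`Finset.sum_update_of_mem` or `Finset.add_sum_erase`); `good_succ`, `alive`. -/
lemma step_alive {T : ℝ} {N : ℕ} {v : Fin (N + 1) → E3} (hv0 : ‖v 0‖ ≤ 1)
    (h4 : ∀ w : Fin 4 → E3, (∀ i, ‖w i‖ ≤ 1) → Q4 T N (Fin.tail v) w)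
    (w : Fin 4 → E3) (hw : ∀ i, ‖w i‖ ≤ 1) {k : Fin 4} (hk : w k = 0)
    (alive : ∀ ε : Fin 4 → ℝ, (∀ i, ε i = 1 ∨ ε i = -1) → ‖∑ i, ε i • w i‖ ^ 2 ≤ T) :
    Q4 T (N + 1) v w := by
  obtain ⟨ε, hε, hG⟩ := h4 (Function.update w k (v 0)) (by
    intro i
    by_cases hik : i = k
    · subst hik; simpa using hv0
    · rw [Function.update_of_ne hik]; exact hw i)
  have hsum : ∑ i, ε i • Function.update w k (v 0) i = ∑ i, ε i • w i + ε k • v 0 := by
    rw [← Finset.add_sum_erase _ _ (Finset.mem_univ k),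
      ← Finset.add_sum_erase (a := k) Finset.univ (fun i => ε i • w i) (Finset.mem_univ k)]
    have h1 : ∑ i ∈ Finset.univ.erase k, ε i • Function.update w k (v 0) i
        = ∑ i ∈ Finset.univ.erase k, ε i • w i := by
      apply Finset.sum_congr rfl
      intro i hi
      rw [Function.update_of_ne (Finset.ne_of_mem_erase hi)]
    rw [h1, Function.update_self, hk, smul_zero, zero_add, add_comm]
  rw [hsum] at hG
  refine ⟨ε, hε, (good_succ _ _).2 ⟨alive ε hε, ?_⟩⟩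
  rcases hε k with h | h
  · left; rw [h, one_smul] at hG; exact hG
  · right; rw [h, neg_one_smul, ← sub_eq_add_neg] at hG; exact hG

private lemma pair_aux {V : Type*} [NormedAddCommGroup V] [InnerProductSpace ℝ V] (a b : V)
    (h : ∀ σ : ℝ, (σ = 1 ∨ σ = -1) → 1 < ‖a + σ • b‖) :
    1 < ‖a‖ ^ 2 + 2 * ⟪a, b⟫ + ‖b‖ ^ 2 ∧ 1 < ‖a‖ ^ 2 - 2 * ⟪a, b⟫ + ‖b‖ ^ 2 := by
  have h1 := h 1 (Or.inl rfl)
  have h2 := h (-1) (Or.inr rfl)
  rw [one_smul] at h1
  rw [neg_one_smul, ← sub_eq_add_neg] at h2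
  constructor
  · rw [← norm_add_sq_real]
    nlinarith [norm_nonneg (a + b)]
  · rw [← norm_sub_sq_real]
    nlinarith [norm_nonneg (a - b)]

private lemma three_big {V : Type*} [NormedAddCommGroup V] [InnerProductSpace ℝ V] (a b c : V)
    (ha : ‖a‖ ≤ 1) (hb : ‖b‖ ≤ 1) (hc : ‖c‖ ≤ 1) {α β γ : ℝ}
    (hα : α = 1 ∨ α = -1) (hβ : β = 1 ∨ β = -1) (hγ : γ = 1 ∨ γ = -1)
    (hbig : 6 < ‖α • a + β • b + γ • c‖ ^ 2) :
    (∃ σ : ℝ, (σ = 1 ∨ σ = -1) ∧ ‖a + σ • b‖ ≤ 1) ∨ (∃ σ : ℝ, (σ = 1 ∨ σ = -1) ∧ ‖a + σ • c‖ ≤ 1) ∨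
      (∃ σ : ℝ, (σ = 1 ∨ σ = -1) ∧ ‖b + σ • c‖ ≤ 1) := by
  by_contra hcon
  push Not at hcon
  obtain ⟨h1, h2, h3⟩ := hcon
  obtain ⟨p1, p2⟩ := pair_aux a b h1
  obtain ⟨q1, q2⟩ := pair_aux a c h2
  obtain ⟨r1, r2⟩ := pair_aux b c h3
  have ha2 : ‖a‖ ^ 2 ≤ 1 := by nlinarith [norm_nonneg a]
  have hb2 : ‖b‖ ^ 2 ≤ 1 := by nlinarith [norm_nonneg b]
  have hc2 : ‖c‖ ^ 2 ≤ 1 := by nlinarith [norm_nonneg c]
  rw [quad3] at hbig
  rcases hα with rfl | rfl <;> rcases hβ with rfl | rfl <;> rcases hγ with rfl | rfl <;>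
    norm_num at hbig <;> linarith

/-- (T9) if no pair of the three nonzero slots merges then `2 |⟪w i, w j⟫| < ‖w i‖² + ‖w j‖² - 1 ≤ 1` for the three pairs and
the squared norm of every signed sum is `< 3 + 3`.  (`fin_cases k`, `Fin.sum_univ_four`, `quad3`.) -/
lemma pair_of_big (w : Fin 4 → E3) (hw : ∀ i, ‖w i‖ ≤ 1) {k : Fin 4} (hk : w k = 0)
    {ε : Fin 4 → ℝ} (hε : ∀ i, ε i = 1 ∨ ε i = -1) (hbig : 6 < ‖∑ i, ε i • w i‖ ^ 2) :
    ∃ i j : Fin 4, i ≠ j ∧ i ≠ k ∧ j ≠ k ∧ ∃ σ : ℝ, (σ = 1 ∨ σ = -1) ∧ ‖w i + σ • w j‖ ≤ 1 := by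
  rw [Fin.sum_univ_four] at hbig
  have hk4 : k = 0 ∨ k = 1 ∨ k = 2 ∨ k = 3 := by
    fin_cases k <;> simp
  rcases hk4 with rfl | rfl | rfl | rfl
  · rw [hk, smul_zero, zero_add] at hbig
    rcases three_big _ _ _ (hw 1) (hw 2) (hw 3) (hε 1) (hε 2) (hε 3) hbig with h | h | h
    · exact ⟨1, 2, by decide, by decide, by decide, h⟩
    · exact ⟨1, 3, by decide, by decide, by decide, h⟩
    · exact ⟨2, 3, by decide, by decide, by decide, h⟩
  · rw [hk, smul_zero, add_zero] at hbig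
    rcases three_big _ _ _ (hw 0) (hw 2) (hw 3) (hε 0) (hε 2) (hε 3) hbig with h | h | h
    · exact ⟨0, 2, by decide, by decide, by decide, h⟩
    · exact ⟨0, 3, by decide, by decide, by decide, h⟩
    · exact ⟨2, 3, by decide, by decide, by decide, h⟩
  · rw [hk, smul_zero, add_zero] at hbig
    rcases three_big _ _ _ (hw 0) (hw 1) (hw 3) (hε 0) (hε 1) (hε 3) hbig with h | h | h
    · exact ⟨0, 1, by decide, by decide, by decide, h⟩
    · exact ⟨0, 3, by decide, by decide, by decide, h⟩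
    · exact ⟨1, 3, by decide, by decide, by decide, h⟩
  · rw [hk, smul_zero, add_zero] at hbig
    rcases three_big _ _ _ (hw 0) (hw 1) (hw 2) (hε 0) (hε 1) (hε 2) hbig with h | h | h
    · exact ⟨0, 1, by decide, by decide, by decide, h⟩
    · exact ⟨0, 2, by decide, by decide, by decide, h⟩
    · exact ⟨1, 2, by decide, by decide, by decide, h⟩

/-- (T10) two zero slots: the norm of a signed sum is at most two (`norm_sum_le`, each term has norm `‖w i‖`). -/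
lemma alive_of_two_zero (w : Fin 4 → E3) (hw : ∀ i, ‖w i‖ ≤ 1) {j k : Fin 4} (hjk : j ≠ k)
    (hj : w j = 0) (hk : w k = 0) (ε : Fin 4 → ℝ) (hε : ∀ i, ε i = 1 ∨ ε i = -1) :
    ‖∑ i, ε i • w i‖ ^ 2 ≤ 6 := by
  have hn : ∀ i, ‖ε i • w i‖ = ‖w i‖ := by
    intro i
    rcases hε i with h | h <;> rw [h] <;> simp
  have h1 : ‖∑ i, ε i • w i‖ ≤ ∑ i, ‖w i‖ := by
    calc ‖∑ i, ε i • w i‖ ≤ ∑ i, ‖ε i • w i‖ := norm_sum_le _ _
      _ = ∑ i, ‖w i‖ := Finset.sum_congr rfl (fun i _ => hn i)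
  have hkm : k ∈ (Finset.univ : Finset (Fin 4)).erase j :=
    Finset.mem_erase.2 ⟨hjk.symm, Finset.mem_univ k⟩
  have h2 : ∑ i, ‖w i‖ ≤ 2 := by
    have e : ∑ i, ‖w i‖ = ∑ i ∈ ((Finset.univ : Finset (Fin 4)).erase j).erase k, ‖w i‖ := by
      rw [← Finset.add_sum_erase Finset.univ _ (Finset.mem_univ j), hj, norm_zero, zero_add,
        ← Finset.add_sum_erase (Finset.univ.erase j) _ hkm, hk, norm_zero, zero_add]
    rw [e]
    calc ∑ i ∈ ((Finset.univ : Finset (Fin 4)).erase j).erase k, ‖w i‖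
        ≤ ∑ i ∈ ((Finset.univ : Finset (Fin 4)).erase j).erase k, (1 : ℝ) :=
          Finset.sum_le_sum (fun i _ => hw i)
      _ = 2 := by
        rw [Finset.sum_const, Finset.card_erase_of_mem hkm,
          Finset.card_erase_of_mem (Finset.mem_univ j)]
        simp
  have h0 := norm_nonneg (∑ i, ε i • w i)
  nlinarith

/-- (T11) undo a pair merge: from `ε'` for the merged slots take `ε = update ε' j (ε' i * σ)`. -/
lemma q4_of_pair {T : ℝ} {N : ℕ} {v : Fin N → E3} (w : Fin 4 → E3) {i j : Fin 4} (hij : i ≠ j)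
    {σ : ℝ} (hσ : σ = 1 ∨ σ = -1)
    (h : Q4 T N v (Function.update (Function.update w i (w i + σ • w j)) j 0)) : Q4 T N v w := by
  obtain ⟨ε', hε', hg⟩ := h
  refine ⟨Function.update ε' j (ε' i * σ), ?_, ?_⟩
  · intro l
    by_cases hl : l = j
    · subst hl
      rw [Function.update_self]
      rcases hε' i with h1 | h1 <;> rcases hσ with h2 | h2 <;> rw [h1, h2] <;> norm_num
    · rw [Function.update_of_ne hl]
      exact hε' l
  · have e : ∑ l, Function.update ε' j (ε' i * σ) l • w l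
        = ∑ l, ε' l • Function.update (Function.update w i (w i + σ • w j)) j 0 l := by
      have hji : j ∈ (Finset.univ.erase i : Finset (Fin 4)) :=
        Finset.mem_erase.2 ⟨Ne.symm hij, Finset.mem_univ _⟩
      rw [← Finset.add_sum_erase _ _ (Finset.mem_univ i), ← Finset.add_sum_erase _ _ hji,
        ← Finset.add_sum_erase (a := i) Finset.univ
          (fun l => ε' l • Function.update (Function.update w i (w i + σ • w j)) j 0 l)
          (Finset.mem_univ i),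
        ← Finset.add_sum_erase (a := j) (Finset.univ.erase i)
          (fun l => ε' l • Function.update (Function.update w i (w i + σ • w j)) j 0 l) hji]
      have hrest : ∑ l ∈ (Finset.univ.erase i).erase j, Function.update ε' j (ε' i * σ) l • w l
          = ∑ l ∈ (Finset.univ.erase i).erase j,
            ε' l • Function.update (Function.update w i (w i + σ • w j)) j 0 l := by
        apply Finset.sum_congr rfl
        intro l hl
        have hlj : l ≠ j := (Finset.mem_erase.1 hl).1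
        have hli : l ≠ i := (Finset.mem_erase.1 (Finset.mem_erase.1 hl).2).1
        rw [Function.update_of_ne hlj, Function.update_of_ne hlj, Function.update_of_ne hli]
      rw [hrest]
      simp only [Function.update_self, Function.update_of_ne hij, smul_zero, zero_add]
      rw [smul_add, smul_smul, add_assoc]
    rw [e]
    exact hg

/-- it suffices to treat buffers all of whose signed sums are short -/
lemma q4_of_alive_case {N : ℕ} {v : Fin N → E3}
    (hA : ∀ w : Fin 4 → E3, (∀ i, ‖w i‖ ≤ 1) → (∃ k, w k = 0) →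
      (∀ ε : Fin 4 → ℝ, (∀ i, ε i = 1 ∨ ε i = -1) → ‖∑ i, ε i • w i‖ ^ 2 ≤ 6) → Q4 6 N v w)
    (w : Fin 4 → E3) (hw : ∀ i, ‖w i‖ ≤ 1) (h0 : ∃ k, w k = 0) : Q4 6 N v w := by
  by_cases halive : ∀ ε : Fin 4 → ℝ, (∀ i, ε i = 1 ∨ ε i = -1) → ‖∑ i, ε i • w i‖ ^ 2 ≤ 6
  · exact hA w hw h0 halive
  · push Not at halive
    obtain ⟨ε, hε, hbig⟩ := halive
    obtain ⟨k, hk⟩ := h0
    obtain ⟨i, j, hij, hik, hjk, σ, hσ, hm⟩ := pair_of_big w hw hk hε hbig
    apply q4_of_pair w hij hσ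
    have hj' : Function.update (Function.update w i (w i + σ • w j)) j 0 j = 0 := by simp
    have hk' : Function.update (Function.update w i (w i + σ • w j)) j 0 k = 0 := by
      rw [Function.update_of_ne (Ne.symm hjk), Function.update_of_ne (Ne.symm hik)]
      exact hk
    have hw' : ∀ l, ‖Function.update (Function.update w i (w i + σ • w j)) j 0 l‖ ≤ 1 := by
      intro l
      by_cases hlj : l = j
      · subst hlj; simp
      · rw [Function.update_of_ne hlj]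
        by_cases hli : l = i
        · subst hli; simpa using hm
        · rw [Function.update_of_ne hli]; exact hw l
    exact hA _ hw' ⟨k, hk'⟩ (alive_of_two_zero _ hw' hjk hj' hk')

theorem key3 : ∀ (N : ℕ) (v : Fin N → E3), (∀ i, ‖v i‖ ≤ 1) → ∀ w : Fin 4 → E3, (∀ i, ‖w i‖ ≤ 1) →
    (∃ k, w k = 0) → Q4 6 N v w := by
  intro N
  induction N with
  | zero =>
    intro v _
    apply q4_of_alive_case
    intro w _ _ halive
    exact ⟨fun _ => 1, fun _ => Or.inl rfl, (good_zero v _).2 (halive _ (fun _ => Or.inl rfl))⟩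
  | succ N ih =>
    intro v hv
    apply q4_of_alive_case
    intro w hw h0 halive
    obtain ⟨k, hk⟩ := h0
    exact step_alive (hv 0) (q4_of_ih (ih (Fin.tail v) (fun i => hv _))) w hw hk halive

theorem sigma_three_le : sigma 3 ≤ ENNReal.ofReal (Real.sqrt 6) := by
  refine sigma_le_of_good fun N v hv => ?_
  obtain ⟨ε, _, h⟩ := key3 N v hv (fun _ => 0) (by simp) ⟨0, rfl⟩
  simpa using h

end Vale.Agent.P262
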